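import Mathlib

/-!
# P273, LIM-G-CUT: derivative of the collision ratio along a curve

`q = ∑ |t_i|^-2` is the inverse square of the scale (`t_i` = distance to the root `i`),
`V = |D|^2 q / c^2` with `D` the distance of the two marks.  If the distances of both marks to the
roots have the logarithmic derivative `ζ` up to `ρ`, the derivative of `V` is `O(ρ)`.
-/

namespace Vale.Agent.P273.H562

open Complex Finset

variable {ι : Type*} [Fintype ι]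

/-- inverse square of the scale -/
noncomputable def qs (t : ι → ℂ) : ℝ := ∑ i, (‖t i‖ ^ 2)⁻¹

theorem qs_nonneg (t : ι → ℂ) : 0 ≤ qs t := Finset.sum_nonneg fun i _ => by positivity

theorem inv_le_qs (t : ι → ℂ) (i : ι) : (‖t i‖ ^ 2)⁻¹ ≤ qs t :=
  Finset.single_le_sum (f := fun i => (‖t i‖ ^ 2)⁻¹) (fun i _ => by positivity) (Finset.mem_univ i)

theorem qs_pos [Nonempty ι] {t : ι → ℂ} (h : ∀ i, t i ≠ 0) : 0 < qs t :=
  lt_of_lt_of_le (by have := norm_pos_iff.2 (h (Classical.arbitrary ι)); positivity)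
    (inv_le_qs t (Classical.arbitrary ι))

theorem one_le_mul_qs {t : ι → ℂ} {i : ι} (h : t i ≠ 0) : 1 ≤ ‖t i‖ ^ 2 * qs t := by
  have h1 : 0 < ‖t i‖ ^ 2 := by have := norm_pos_iff.2 h; positivity
  have h2 := inv_le_qs t i
  calc (1 : ℝ) = ‖t i‖ ^ 2 * (‖t i‖ ^ 2)⁻¹ := (mul_inv_cancel₀ h1.ne').symm
    _ ≤ _ := by gcongr

/-- the nearest root is at a distance comparable with the scale -/
theorem exists_near [Nonempty ι] {t : ι → ℂ} (h : ∀ i, t i ≠ 0) :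
    ∃ i, ‖t i‖ ^ 2 * qs t ≤ Fintype.card ι := by
  obtain ⟨i, hi⟩ := Finite.exists_min fun i => ‖t i‖
  refine ⟨i, ?_⟩
  have hp : 0 < ‖t i‖ ^ 2 := by have := norm_pos_iff.2 (h i); positivity
  unfold qs
  rw [Finset.mul_sum]
  calc ∑ j, ‖t i‖ ^ 2 * (‖t j‖ ^ 2)⁻¹ ≤ ∑ _j : ι, (1 : ℝ) := by
        refine Finset.sum_le_sum fun j _ => ?_
        have h1 : ‖t i‖ ^ 2 ≤ ‖t j‖ ^ 2 := by have := hi j; gcongr
        have h2 : 0 < ‖t j‖ ^ 2 := hp.trans_le h1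
        rw [← div_eq_mul_inv, div_le_one h2]
        exact h1
    _ = _ := by simp

/-- real inner product on `ℂ` -/
noncomputable def ip (z w : ℂ) : ℝ := (z * (starRingEnd ℂ) w).re

theorem abs_ip_le (z w : ℂ) : |ip z w| ≤ ‖z‖ * ‖w‖ := by
  unfold ip
  exact (Complex.abs_re_le_norm _).trans (by rw [norm_mul, Complex.norm_conj])

theorem ip_mul_self (ζ z : ℂ) : ip (ζ * z) z = ζ.re * ‖z‖ ^ 2 := by
  unfold ip
  rw [mul_assoc, Complex.mul_conj, Complex.normSq_eq_norm_sq, Complex.re_mul_ofReal]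

theorem ip_sub (z z' w : ℂ) : ip (z - z') w = ip z w - ip z' w := by
  unfold ip; rw [sub_mul, Complex.sub_re]

theorem hasDerivAt_normSq {f : ℝ → ℂ} {f' : ℂ} {s : ℝ} (h : HasDerivAt f f' s) :
    HasDerivAt (fun s => ‖f s‖ ^ 2) (2 * ip f' (f s)) s := by
  have hre : HasDerivAt (fun s => (f s).re) f'.re s := by
    have := (Complex.reCLM.hasFDerivAt (x := f s)).comp_hasDerivAt s h
    exact this
  have him : HasDerivAt (fun s => (f s).im) f'.im s := by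
    have := (Complex.imCLM.hasFDerivAt (x := f s)).comp_hasDerivAt s h
    exact this
  have h1 : (fun s => ‖f s‖ ^ 2) = fun s => (f s).re ^ 2 + (f s).im ^ 2 := by
    funext s
    rw [← Complex.normSq_eq_norm_sq, Complex.normSq_apply]
    ring
  rw [h1]
  refine ((hre.pow 2).add (him.pow 2)).congr_deriv ?_
  simp only [ip, Complex.mul_re, Complex.conj_re, Complex.conj_im]
  push_cast
  ring

/-- the derivative of `qs` -/
noncomputable def qs' (t t' : ι → ℂ) : ℝ := ∑ i, -(2 * ip (t' i) (t i)) / (‖t i‖ ^ 2) ^ 2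

theorem hasDerivAt_qs {t : ℝ → ι → ℂ} {t' : ι → ℂ} {s : ℝ}
    (h : ∀ i, HasDerivAt (fun s => t s i) (t' i) s) (h0 : ∀ i, t s i ≠ 0) :
    HasDerivAt (fun s => qs (t s)) (qs' (t s) t') s := by
  unfold qs qs'
  refine HasDerivAt.fun_sum fun i _ => ?_
  have h1 : ‖t s i‖ ^ 2 ≠ 0 := by have := norm_pos_iff.2 (h0 i); positivity
  exact (hasDerivAt_normSq (h i)).fun_inv h1

/-- **logarithmic derivative of the scale** -/
theorem abs_qs'_add_le {t t' : ι → ℂ} (h0 : ∀ i, t i ≠ 0) {ζ : ℂ} {ρ : ℝ}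
    (h : ∀ i, ‖t' i - ζ * t i‖ ≤ ρ * ‖t i‖ ^ 3 * qs t) :
    |qs' t t' + 2 * ζ.re * qs t| ≤ 2 * Fintype.card ι * ρ * qs t := by
  have h1 : qs' t t' + 2 * ζ.re * qs t = ∑ i, -(2 * ip (t' i - ζ * t i) (t i)) / (‖t i‖ ^ 2) ^ 2 := by
    unfold qs' qs
    rw [Finset.mul_sum, ← Finset.sum_add_distrib]
    refine Finset.sum_congr rfl fun i _ => ?_
    have hp : ‖t i‖ ^ 2 ≠ 0 := by have := norm_pos_iff.2 (h0 i); positivity
    rw [ip_sub, ip_mul_self]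
    field_simp
    ring
  rw [h1]
  calc |∑ i, -(2 * ip (t' i - ζ * t i) (t i)) / (‖t i‖ ^ 2) ^ 2|
      ≤ ∑ i, |-(2 * ip (t' i - ζ * t i) (t i)) / (‖t i‖ ^ 2) ^ 2| := Finset.abs_sum_le_sum_abs _ _
    _ ≤ ∑ _i : ι, 2 * ρ * qs t := by
        refine Finset.sum_le_sum fun i _ => ?_
        have hp : 0 < ‖t i‖ := norm_pos_iff.2 (h0 i)
        rw [abs_div, abs_neg, abs_mul, abs_of_pos (by positivity : (0 : ℝ) < (‖t i‖ ^ 2) ^ 2),
          div_le_iff₀ (by positivity), abs_of_pos (by norm_num : (0 : ℝ) < 2)]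
        calc 2 * |ip (t' i - ζ * t i) (t i)| ≤ 2 * (‖t' i - ζ * t i‖ * ‖t i‖) := by
              gcongr; exact abs_ip_le _ _
          _ ≤ 2 * ((ρ * ‖t i‖ ^ 3 * qs t) * ‖t i‖) := by gcongr; exact h i
          _ = _ := by ring
    _ = _ := by rw [Finset.sum_const, Finset.card_univ, nsmul_eq_mul]; ring

/-- the collision ratio, up to the factor `c^2` -/
noncomputable def rt (D : ℂ) (t : ι → ℂ) : ℝ := ‖D‖ ^ 2 * qs t

theorem hasDerivAt_rt {D : ℝ → ℂ} {D' : ℂ} {t : ℝ → ι → ℂ} {t' : ι → ℂ} {s : ℝ}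
    (hD : HasDerivAt D D' s) (h : ∀ i, HasDerivAt (fun s => t s i) (t' i) s)
    (h0 : ∀ i, t s i ≠ 0) :
    HasDerivAt (fun s => rt (D s) (t s))
      (2 * ip D' (D s) * qs (t s) + ‖D s‖ ^ 2 * qs' (t s) t') s :=
  (hasDerivAt_normSq hD).mul (hasDerivAt_qs h h0)

/-- **derivative of the collision ratio of two marks with the same logarithmic derivative.**
`t`, `u` = distances of the first and the second mark to the roots, `D = t i - u i`. -/
theorem abs_rt'_le [Nonempty ι] {t t' u u' : ι → ℂ} {D D' : ℂ} (h0 : ∀ i, t i ≠ 0)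
    (hD : ∀ i, D = t i - u i) (hD' : ∀ i, D' = t' i - u' i) {ζ : ℂ} {ρ c : ℝ} (hρ : 0 ≤ ρ)
    (hc0 : 0 ≤ c) (hc : c ≤ 1 / 2) (h : ∀ i, ‖t' i - ζ * t i‖ ≤ ρ * ‖t i‖ ^ 3 * qs t)
    (hu : ∀ i, ‖u' i - ζ * u i‖ ≤ ρ * ‖u i‖ ^ 3 * qs u) (hr : rt D t ≤ c ^ 2) :
    |2 * ip D' D * qs t + ‖D‖ ^ 2 * qs' t t'| ≤
      30 * c * (Fintype.card ι) ^ 3 * ρ + 2 * Fintype.card ι * ρ * c ^ 2 := by
  set n : ℝ := (Fintype.card ι : ℝ) with hn
  have hn1 : 1 ≤ n := by rw [hn]; exact_mod_cast Fintype.card_pos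
  have hq : 0 < qs t := qs_pos h0
  -- the scale of the first mark
  set r : ℝ := Real.sqrt (qs t)⁻¹ with hrdef
  have hr0 : 0 < r := Real.sqrt_pos.2 (inv_pos.2 hq)
  have hr2 : r ^ 2 = (qs t)⁻¹ := Real.sq_sqrt (inv_pos.2 hq).le
  have hrq : r ^ 2 * qs t = 1 := by rw [hr2]; exact inv_mul_cancel₀ hq.ne'
  have hDr : ‖D‖ ≤ c * r := by
    refine le_of_sq_le_sq ?_ (by positivity)
    rw [mul_pow, hr2]
    have : ‖D‖ ^ 2 * qs t ≤ c ^ 2 := hr
    rw [← div_eq_mul_inv, le_div_iff₀ hq]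
    exact this
  have hti : ∀ i, r ≤ ‖t i‖ := by
    intro i
    refine le_of_sq_le_sq ?_ (norm_nonneg _)
    rw [hr2, inv_le_comm₀ hq (by have := norm_pos_iff.2 (h0 i); positivity)]
    exact inv_le_qs t i
  have hui : ∀ i, ‖t i‖ / 2 ≤ ‖u i‖ := by
    intro i
    have h1 : t i = u i + D := by rw [hD i]; ring
    have h2 : ‖t i‖ ≤ ‖u i‖ + ‖D‖ := by
      calc ‖t i‖ = ‖u i + D‖ := by rw [← h1]
        _ ≤ _ := norm_add_le _ _
    have h3 : ‖D‖ ≤ ‖t i‖ / 2 := by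
      calc ‖D‖ ≤ c * r := hDr
        _ ≤ 1 / 2 * ‖t i‖ := by gcongr; exact hti i
        _ = _ := by ring
    linarith
  have hu4 : qs u ≤ 4 * qs t := by
    unfold qs
    rw [Finset.mul_sum]
    refine Finset.sum_le_sum fun i _ => ?_
    have h1 : 0 < ‖t i‖ := norm_pos_iff.2 (h0 i)
    have h2 := hui i
    have h3 : (‖u i‖ ^ 2)⁻¹ ≤ ((‖t i‖ / 2) ^ 2)⁻¹ := inv_anti₀ (by positivity) (by gcongr)
    refine h3.trans (le_of_eq ?_)
    field_simp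
    norm_num
  -- the nearest root
  obtain ⟨i, hi⟩ := exists_near h0
  have hti2 : ‖t i‖ ≤ n * r := by
    refine le_of_sq_le_sq ?_ (by positivity)
    have h1 : ‖t i‖ ^ 2 * qs t ≤ n := hi
    have h2 : ‖t i‖ ^ 2 = ‖t i‖ ^ 2 * qs t * r ^ 2 := by
      rw [mul_assoc, mul_comm (qs t), hrq, mul_one]
    rw [h2, mul_pow]
    have h3 : n ≤ n ^ 2 := by nlinarith
    gcongr
    exact h1.trans h3
  have hui2 : ‖u i‖ ≤ (3 / 2) * (n * r) := by
    have h1 : ‖u i‖ ≤ ‖t i‖ + ‖D‖ := by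
      have : u i = t i - D := by rw [hD i]; ring
      rw [this]; exact norm_sub_le _ _
    have h2 : c * r ≤ 1 / 2 * (n * r) := by
      have : c * r ≤ 1 / 2 * r := by gcongr
      nlinarith
    linarith
  -- derivative of the difference
  have hDz : ‖D' - ζ * D‖ ≤ 15 * n ^ 3 * ρ * r := by
    have e : D' - ζ * D = (t' i - ζ * t i) - (u' i - ζ * u i) := by rw [hD i, hD' i]; ring
    rw [e]
    calc _ ≤ ‖t' i - ζ * t i‖ + ‖u' i - ζ * u i‖ := norm_sub_le _ _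
      _ ≤ ρ * ‖t i‖ ^ 3 * qs t + ρ * ‖u i‖ ^ 3 * qs u := add_le_add (h i) (hu i)
      _ ≤ ρ * (n * r) ^ 3 * qs t + ρ * ((3 / 2) * (n * r)) ^ 3 * (4 * qs t) := by
          have := qs_nonneg u
          gcongr
      _ = (1 + 27 / 2) * n ^ 3 * ρ * r * (r ^ 2 * qs t) := by ring
      _ ≤ _ := by rw [hrq]; have : 0 ≤ n ^ 3 * ρ * r := by positivity
                  nlinarith
  have e : 2 * ip D' D * qs t + ‖D‖ ^ 2 * qs' t t' =
      2 * ip (D' - ζ * D) D * qs t + ‖D‖ ^ 2 * (qs' t t' + 2 * ζ.re * qs t) := by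
    rw [ip_sub, ip_mul_self]; ring
  rw [e]
  have hq' := abs_qs'_add_le h0 h
  have hr' : ‖D‖ ^ 2 * qs t ≤ c ^ 2 := hr
  calc |2 * ip (D' - ζ * D) D * qs t + ‖D‖ ^ 2 * (qs' t t' + 2 * ζ.re * qs t)|
      ≤ |2 * ip (D' - ζ * D) D * qs t| + |‖D‖ ^ 2 * (qs' t t' + 2 * ζ.re * qs t)| := abs_add_le _ _
    _ = 2 * |ip (D' - ζ * D) D| * qs t + ‖D‖ ^ 2 * |qs' t t' + 2 * ζ.re * qs t| := by
        rw [abs_mul, abs_mul, abs_mul, abs_of_pos hq, abs_of_pos (by norm_num : (0 : ℝ) < 2),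
          abs_of_nonneg (by positivity : (0 : ℝ) ≤ ‖D‖ ^ 2)]
    _ ≤ 2 * ((15 * n ^ 3 * ρ * r) * (c * r)) * qs t + ‖D‖ ^ 2 * (2 * n * ρ * qs t) := by
        gcongr
        exact (abs_ip_le _ _).trans (by gcongr)
    _ = 30 * c * n ^ 3 * ρ * (r ^ 2 * qs t) + 2 * n * ρ * (‖D‖ ^ 2 * qs t) := by ring
    _ ≤ 30 * c * n ^ 3 * ρ + 2 * n * ρ * c ^ 2 := by
        rw [hrq, mul_one]
        gcongr

end Vale.Agent.P273.H562
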