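import Vale.Agent.P273.H732.Conv2
import Vale.Agent.P273.H975.FDom
import Vale.Agent.P273.H828.AnnDefs

/-!
# P273, LIM: the asymptotic properties of the gauge at the theta point (statement)

Region `R` of helper95, `m` = eliminated gap of every neck, log coordinates of helper732.
`emb` = coordinates of the region (gaps scaled so that `|X| = 1/16` is the end of the neck),
`posE` = (roots, marks), `leg` = value of `θ_j^ξ` on a direction of the log chart.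
-/

noncomputable section

namespace Vale.Agent.P273.H562

open Set Filter H681 H95 H732
open scoped Topology ContDiff

section Defs

variable (R : H95.Region) (m : ∀ k, Fin (R.n k + 1))

/-- the region chart -/
abbrev W : H732.Reg (Fin 3) (Σ k, Fin (R.n k + 1)) := wreg R.n m

/-- its coordinates `(u, φ, y, α, s)` -/
abbrev Co : Type := (W R m).Co R.Cm

/-- from the log coordinates to the coordinates of the region -/
def emb (p : Co R m) : R.Sp := H732.scl R ((W R m).psi p)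

/-- the roots -/
def rootsL (y α : Fin 3 → ℝ) : C6 :=
  H828.th fun k => (1 / 16 : ℂ) * Complex.exp ((-(y k : ℂ) + (α k : ℂ) * Complex.I) / 2)

/-- (roots, marks) -/
def posE (p : Co R m) : H95.E := (rootsL p.2.2.1 p.2.2.2.1, R.pos (emb R m p))

/-- the sheets -/
def shE (S : L → Bool) (p : Co R m) : L → ℂ := R.sht S (emb R m p)

/-- the form `θ_j^ξ` in the log chart -/
def leg (Θ : Gauge) (S : L → Bool) (j : L) (ξ : Fin 6 → ℝ) (p : Co R m) : Co R m →L[ℝ] ℝ :=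
  (Θ.θ j ξ S (posE R m p) (shE R m S p)).comp (fderiv ℝ (posE R m) p)

/-- the points of the region: ordered gaps, long necks, bounded base angles, core marks in the
compact zones (`|x| ≤ 11`, `|x - e_k| ≥ 1/64`, far marks `|w| ≤ 1/11`), no mark at a root -/
def Adm (S : L → Bool) (N₀ : ℝ) (p : Co R m) : Prop :=
  (W R m).Inr p ∧ (∀ k, N₀ ≤ p.2.2.1 k) ∧ (∀ k, -7 ≤ p.2.2.2.1 k ∧ p.2.2.2.1 k ≤ 1) ∧
  p.2.2.2.2 ∈ H975.zone R S (1 / 64) 11 ∧ ∀ j, shE R m S p j ≠ 0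

end Defs

section Lam

variable (κ : Fin 3 → Fin 3 → ℝ)

/-- difference of the two numbers of the pair `k` -/
def bt (ξ : Fin 6 → ℝ) (k : Fin 3) : ℝ :=
  ![ξ 1 - ξ 0, ξ 3 - ξ 2, ξ 5 - ξ 4] k

/-- second number of the pair `k` (the root `e_k + d_k`, that is `X = Y = d_k`) -/
def xe (ξ : Fin 6 → ℝ) (k : Fin 3) : ℝ := ![ξ 1, ξ 3, ξ 5] k

/-- `∑ |g_k| / y_k` -/
def ww (ξ : Fin 6 → ℝ) (y : Fin 3 → ℝ) : ℝ := ∑ k, |xe ξ k| / y k

/-- the smallest length -/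
def mn (y : Fin 3 → ℝ) : ℝ := min (y 0) (min (y 1) (y 2))

/-- `g_k = ξ_k + β_k α_k / (2 π) + ∑ κ_kl β_l` -/
def gg (ξ : Fin 6 → ℝ) (α : Fin 3 → ℝ) (k : Fin 3) : ℝ :=
  xe ξ k + bt ξ k * α k / (2 * Real.pi) + ∑ l, κ k l * bt ξ l

/-- the limit of the value at the core P -/
def lam (ξ : Fin 6 → ℝ) (y α : Fin 3 → ℝ) : ℝ := (∑ k, gg κ ξ α k / y k) / ∑ k, 1 / y k

/-- derivative of `lam` in `α l` -/
def lamA (ξ : Fin 6 → ℝ) (y : Fin 3 → ℝ) (l : Fin 3) : ℝ :=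
  bt ξ l / (2 * Real.pi) / y l / ∑ k, 1 / y k

/-- derivative of `lam` in `y l` -/
def lamY (ξ : Fin 6 → ℝ) (y α : Fin 3 → ℝ) (l : Fin 3) : ℝ :=
  (lam κ ξ y α - gg κ ξ α l) / (y l) ^ 2 / ∑ k, 1 / y k

end Lam

section Lim

variable (κ : Fin 3 → Fin 3 → ℝ) (R : H95.Region) (m : ∀ k, Fin (R.n k + 1))

open Classical in
/-- limit size of a gap, in units of `N` -/
def szl (B : Set (W R m).Fr) (p : Co R m) (g : Σ k, Fin (R.n k + 1)) : ℝ :=
  if h : g ≠ (W R m).last ((W R m).nk g) then (if (⟨g, h⟩ : (W R m).Fr) ∈ B then p.1 ⟨g, h⟩ else 0)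
  else p.2.2.1 ((W R m).nk g) -
    ∑ f : (W R m).Fr, if (W R m).nk f.1 = (W R m).nk g ∧ f ∈ B then p.1 f else 0

/-- the rank of a mark of the neck `k` -/
def rkF {j : L} {k : Fin 3} (h : R.pl j = Sum.inl k) : Fin (R.n k) := ⟨R.rk j, R.rk_lt j k h⟩

/-- limit depth of a mark of a neck -/
def depl (B : Set (W R m).Fr) (p : Co R m) {j : L} {k : Fin 3} (h : R.pl j = Sum.inl k) : ℝ :=
  ∑ g ∈ wreg.bef R.n k (rkF R h), szl R m B p g

/-- scale of the direction: `N` for sizes and for the Euler vectors -/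
inductive BDir (R : H95.Region) (m : ∀ k, Fin (R.n k + 1)) : Type
  | u (f : (W R m).Fr)
  | ph (f : (W R m).Fr)
  | al (k : Fin 3)
  | eul (k : Fin 3)

open Classical in
/-- the Euler vector of the neck `k` along the gaps of `B` (the other gaps of the neck are fixed) -/
def eulB (B : Set (W R m).Fr) (p : Co R m) (k : Fin 3) : Co R m :=
  (fun f => if (W R m).nk f.1 = k ∧ f ∈ B then p.1 f / p.2.2.1 k else 0, 0, Pi.single k 1, 0, 0)

/-- the vector of a direction at a point -/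
def BDir.vec (B : Set (W R m).Fr) (p : Co R m) : BDir R m → Co R m
  | .u f => (W R m).vec (.u f)
  | .ph f => (W R m).vec (.ph f)
  | .al k => (W R m).vec (.al k)
  | .eul k => eulB R m B p k

/-- power of `N` of the direction -/
def BDir.sca (N : ℝ) : BDir R m → ℝ
  | .u _ => N
  | .ph _ => 1
  | .al _ => 1
  | .eul _ => N

/-- the directions whose legs have a limit: gaps in `B` and the base -/
def BDir.ok (B : Set (W R m).Fr) : BDir R m → Prop
  | .u f => f ∈ B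
  | .ph f => f ∈ B
  | .al _ => True
  | .eul _ => True

/-- limit of the leg of a mark of the neck `k` at depth `s`; `lx` = derivative of the logarithm of
its coordinate `X` -/
def legN (ξ : Fin 6 → ℝ) (y α : Fin 3 → ℝ) (k : Fin 3) (s : ℝ) (lx : Co R m → ℂ) :
    BDir R m → ℝ
  | .u f => 2 * (lam κ ξ y α - gg κ ξ α k) / y k * (lx ((W R m).vec (.u f))).re
  | .ph f => -(bt ξ k / Real.pi) * (lx ((W R m).vec (.ph f))).im
  | .al l => (lamA ξ y l - if l = k then bt ξ k / (2 * Real.pi) else 0) * (1 - 2 * s / y k) -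
      bt ξ k / Real.pi * ((lx ((W R m).vec (.al l))).im - if l = k then 1 / 2 else 0)
  | .eul l => lamY κ ξ y α l * (1 - 2 * s / y k)

/-- limit of the leg of a mark on the cores -/
def legC (ξ : Fin 6 → ℝ) (y α : Fin 3 → ℝ) (b : Bool) : BDir R m → ℝ
  | .u _ => 0
  | .ph _ => 0
  | .al l => (if b then -1 else 1) * lamA ξ y l
  | .eul l => (if b then -1 else 1) * lamY κ ξ y α l

/-- generic points: gaps of `B` of positive size with sum less than `y`, the other free gaps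
positive, core marks inside the zones, base angles bounded, no mark in the middle of a neck -/
def Gen (S : L → Bool) (B : Set (W R m).Fr) (p : Co R m) : Prop :=
  (W R m).Pos B p ∧ (∀ f ∉ B, 0 < p.1 f) ∧
  (∀ f ∈ B, p.1 f < szl R m B p ((W R m).last ((W R m).nk f.1))) ∧
  (∀ k, -7 ≤ p.2.2.2.1 k ∧ p.2.2.2.1 k ≤ 1) ∧
  p.2.2.2.2 ∈ H975.zone R S (1 / 64) 11 ∧
  ∀ (j : L) (k : Fin 3) (h : R.pl j = Sum.inl k), 2 * depl R m B p h ≠ p.2.2.1 k

end Lim

/-- **The asymptotic properties of the gauge at the theta point.** (`κ` = unknown constants, the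
values of the matching constants at `ε = 0`; they drop out of the result.) -/
structure Asy (κ : Fin 3 → Fin 3 → ℝ) (Θ : Gauge) : Prop where
  /-- all legs are bounded -/
  b1 : ∃ K N₀ : ℝ, 1 ≤ N₀ ∧ ∀ R m S, FarOk R S → ∀ p, Adm R m S N₀ p → ∀ j ξ, IsCl ξ →
    ∀ d : (W R m).Dir R.Cm, (∀ k, d ≠ .y k) → |leg R m Θ S j ξ p ((W R m).vec d)| ≤ K * ‖ξ‖
  /-- legs at a gap -/
  b2 : ∃ K N₀ : ℝ, 1 ≤ N₀ ∧ ∀ R m S, FarOk R S → ∀ p, Adm R m S N₀ p → ∀ j ξ, IsCl ξ →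
    ∀ f : (W R m).Fr, ∀ d : (W R m).Dir R.Cm, (d = .u f ∨ d = .ph f) →
      |leg R m Θ S j ξ p ((W R m).vec d)| ≤ K * (|bt ξ ((W R m).nk f.1)| +
        ‖ξ‖ * (1 / p.2.2.1 ((W R m).nk f.1) + Real.exp (-p.1 f)))
  /-- legs at the base angles -/
  b4 : ∃ K N₀ : ℝ, 1 ≤ N₀ ∧ ∀ R m S, FarOk R S → ∀ p, Adm R m S N₀ p → ∀ j ξ, IsCl ξ →
    ∀ k, |leg R m Θ S j ξ p ((W R m).vec (.al k))| ≤ K * (|bt ξ k| + ‖ξ‖ / p.2.2.1 k)
  /-- legs at the Euler vectors -/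
  b5 : ∃ K N₀ : ℝ, 1 ≤ N₀ ∧ ∀ R m S, FarOk R S → ∀ p, Adm R m S N₀ p → ∀ j ξ, IsCl ξ →
    ∀ k, |leg R m Θ S j ξ p ((W R m).eul p k)| ≤ K * (‖ξ‖ / p.2.2.1 k)
  /-- classes that are constant on the three pairs -/
  b6 : ∃ K N₀ : ℝ, 1 ≤ N₀ ∧ ∀ R m S, FarOk R S → ∀ p, Adm R m S N₀ p → ∀ j ξ, IsCl ξ →
    (∀ k, bt ξ k = 0) →
    (∀ d : (W R m).Dir R.Cm, (∀ k, d ≠ .y k) →
      |leg R m Θ S j ξ p ((W R m).vec d)| ≤ K * ww ξ p.2.2.1) ∧
    ∀ k, |leg R m Θ S j ξ p ((W R m).eul p k)| ≤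
      K * (ww ξ p.2.2.1 * (mn p.2.2.1 / p.2.2.1 k))
  /-- limits, marks of the necks -/
  limN : ∀ R m S, FarOk R S → ∀ (B : Set (W R m).Fr) (p : Co R m), Gen R m S B p →
    (∀ k, 0 < p.2.2.1 k) → ∀ (j : L) (k : Fin 3) (h : R.pl j = Sum.inl k) (ξ : Fin 6 → ℝ),
    IsCl ξ → ∀ d : BDir R m, d.ok R m B →
    Tendsto (fun N : ℝ => d.sca R m N * leg R m Θ S j ξ ((W R m).dpt B N p)
      (d.vec R m B ((W R m).dpt B N p))) atTop
      (𝓝 (legN κ R m ξ p.2.2.1 p.2.2.2.1 k (depl R m B p h) (wreg.LX R.Cm R.n m k (rkF R h)) d))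
  /-- limits, marks of the cores -/
  limC : ∀ R m S, FarOk R S → ∀ (B : Set (W R m).Fr) (p : Co R m), Gen R m S B p →
    (∀ k, 0 < p.2.2.1 k) → ∀ (j : L) (b : Bool), R.pl j = Sum.inr b → ∀ ξ : Fin 6 → ℝ,
    IsCl ξ → ∀ d : BDir R m, d.ok R m B →
    Tendsto (fun N : ℝ => d.sca R m N * leg R m Θ S j ξ ((W R m).dpt B N p)
      (d.vec R m B ((W R m).dpt B N p))) atTop
      (𝓝 (legC κ R m ξ p.2.2.1 p.2.2.2.1 b d))
  /-- classes that are constant on the three pairs: angles -/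
  lim0 : ∀ R m S, FarOk R S → ∀ (B : Set (W R m).Fr) (p : Co R m), Gen R m S B p →
    (∀ k, 0 < p.2.2.1 k) → ∀ (j : L) (ξ : Fin 6 → ℝ), IsCl ξ → (∀ k, bt ξ k = 0) →
    (∀ f ∈ B, Tendsto (fun N : ℝ => N * leg R m Θ S j ξ ((W R m).dpt B N p)
      ((W R m).vec (.ph f))) atTop (𝓝 0)) ∧
    ∀ l, Tendsto (fun N : ℝ => N * leg R m Θ S j ξ ((W R m).dpt B N p)
      ((W R m).vec (.al l))) atTop (𝓝 0)
  /-- marks of the same type that are close have the same form -/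
  col : ∃ δ N₀ : ℝ, 0 < δ ∧ ∀ R m S, FarOk R S → ∀ p, Adm R m S N₀ p → ∀ i j : L, i ≠ j →
    i.2 = j.2 →
    (((∀ k, ¬ (R.pl i = Sum.inl k ∧ R.pl j = Sum.inl k)) ∧ H975.Clo R S (emb R m p) i j < δ) ∨
      ∃ k, R.pl i = Sum.inl k ∧ R.pl j = Sum.inl k ∧ R.rk i < R.rk j ∧
        H975.Cln R (emb R m p) i j k < δ) →
    ∀ ξ, IsCl ξ → leg R m Θ S i ξ p = leg R m Θ S j ξ p

end Vale.Agent.P273.H562

end
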