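import Vale.Agent.P273.H562.RegCore

/-!
# P273, LIM step 5: the limits of the torus contributions
-/

noncomputable section

namespace Vale.Agent.P273.H562

open Set Filter MeasureTheory H681 H95 H732 H573
open scoped Topology ContDiff

section Fr

variable {R : H95.Region} {m : ∀ k, Fin (R.n k + 1)}

/-- scaling of the two base vectors -/
theorem fr30_smul (f : Alt (16 + 14) (Co R m)) (c c' : ℝ) (a b : Co R m) :
    f (fr30 R m (c • a) (c' • b)) = c * c' * f (fr30 R m a b) := by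
  have h1 : fr30 R m (c • a) (c' • b) = fun i : Fin (16 + 14) =>
      (Fin.append (m := 28) (n := 2) (fun _ => (1 : ℝ)) ![c, c'] : Fin (16 + 14) → ℝ) i •
        fr30 R m a b i := by
    funext i
    refine Fin.addCases (m := 28) (n := 2) (fun j => ?_) (fun j => ?_) i
    · simp only [fr30]
      rw [Fin.append_left, Fin.append_left, Fin.append_left, one_smul]
    · simp only [fr30]
      rw [Fin.append_right, Fin.append_right, Fin.append_right]
      fin_cases j
      · rfl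
      · rfl
  rw [h1]
  have h2 := f.toMultilinearMap.map_smul_univ
    (Fin.append (m := 28) (n := 2) (fun _ => (1 : ℝ)) ![c, c'] : Fin (16 + 14) → ℝ)
    (fr30 R m a b)
  have h3 : ∏ i : Fin (16 + 14),
      (Fin.append (m := 28) (n := 2) (fun _ => (1 : ℝ)) ![c, c'] : Fin (16 + 14) → ℝ) i =
      c * c' := by
    have := Fin.prod_univ_add (a := 28) (b := 2)
      (Fin.append (fun _ => (1 : ℝ)) ![c, c'])
    refine this.trans ?_
    simp [Fin.append_left, Fin.append_right, Fin.prod_univ_two]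
  rw [h3] at h2
  exact h2

end Fr

theorem aT_mem (i j : Fin 3) {s : Fin 2 → ℝ} (hs : s ∈ Icc (0 : Fin 2 → ℝ) 1) (k : Fin 3) :
    -7 ≤ aT i j s k ∧ aT i j s k ≤ 1 := by
  have hp := Real.pi_pos
  have hp2 := Real.pi_lt_d2
  have h0 := hs.1 0
  have h1 := hs.2 0
  have h2 := hs.1 1
  have h3 := hs.2 1
  simp only [Pi.zero_apply, Pi.one_apply] at h0 h1 h2 h3
  unfold aT
  split_ifs
  · constructor
    · nlinarith
    · nlinarith
  · constructor
    · nlinarith
    · nlinarith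
  · constructor <;> norm_num

section Meas

theorem meas_ev {P E : Type*} [MeasurableSpace P] [TopologicalSpace P] [OpensMeasurableSpace P]
    [SecondCountableTopology P] [NormedAddCommGroup E] [NormedSpace ℝ E] (μ : Measure P) {k : ℕ}
    {S : Set P} (hS : MeasurableSet S) {f : P → E [⋀^Fin k]→L[ℝ] ℝ} (hf : ContinuousOn f S)
    {v : P → Fin k → E} (hv : ContinuousOn v S) :
    AEStronglyMeasurable (fun p => f p (v p)) (μ.restrict S) :=
  (hf.eval hv).aestronglyMeasurable hS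

variable {R : H95.Region} {m : ∀ k, Fin (R.n k + 1)}

/-- measurability of the integrand along a family of base points, fixed or moving frame -/
theorem meas_fam {Q : Type*} [MeasurableSpace Q] [TopologicalSpace Q] [BorelSpace Q]
    [SecondCountableTopology Q] (μ : Measure (Q × Fb R m)) (hM1 : MeasDom)
    {f : Co R m → Alt (16 + 14) (Co R m)} {far : R.Cm → Bool} {N₂ : ℝ}
    (hcm : ContinuousOn (fun q : BF R m => f (H573.mk R m q.1.1 q.1.2 q.2))
      {q | (∀ k, N₂ ≤ q.1.1 k) ∧ (∀ k, -7 ≤ q.1.2 k ∧ q.1.2 k ≤ 1) ∧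
        q.2 ∈ domF R m far q.1.1 q.1.2})
    {D : Set Q} (hD : MeasurableSet D) {yq αq : Q → Fin 3 → ℝ} (hy : Continuous yq)
    (hα : Continuous αq) (hy1 : ∀ q ∈ D, ∀ k, N₂ ≤ yq q k)
    (hα1 : ∀ q ∈ D, ∀ k, -7 ≤ αq q k ∧ αq q k ≤ 1)
    {v : BF R m → Fin (16 + 14) → Co R m}
    (hv : ContinuousOn v {q | (∀ k, N₂ ≤ q.1.1 k) ∧ (∀ k, -7 ≤ q.1.2 k ∧ q.1.2 k ≤ 1) ∧
        q.2 ∈ domF R m far q.1.1 q.1.2}) :
    AEStronglyMeasurable (fun p : Q × Fb R m =>
      f (H573.mk R m (yq p.1) (αq p.1) p.2) (v ((yq p.1, αq p.1), p.2)))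
      (μ.restrict {p | p.1 ∈ D ∧ p.2 ∈ domF R m far (yq p.1) (αq p.1)}) := by
  have : OpensMeasurableSpace (Q × Fb R m) := Prod.opensMeasurableSpace
  have h1 : Continuous fun p : Q × Fb R m => (((yq p.1, αq p.1), p.2) : BF R m) :=
    ((hy.comp continuous_fst).prodMk (hα.comp continuous_fst)).prodMk continuous_snd
  have hS : MeasurableSet {p : Q × Fb R m | p.1 ∈ D ∧
      p.2 ∈ domF R m far (yq p.1) (αq p.1)} :=
    (hD.preimage measurable_fst).inter ((hM1 R m far).preimage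
      (((hy.measurable.comp measurable_fst).prodMk
        (hα.measurable.comp measurable_fst)).prodMk measurable_snd))
  have hmaps : MapsTo (fun p : Q × Fb R m => (((yq p.1, αq p.1), p.2) : BF R m))
      {p | p.1 ∈ D ∧ p.2 ∈ domF R m far (yq p.1) (αq p.1)}
      {q | (∀ k, N₂ ≤ q.1.1 k) ∧ (∀ k, -7 ≤ q.1.2 k ∧ q.1.2 k ≤ 1) ∧
        q.2 ∈ domF R m far q.1.1 q.1.2} := by
    rintro p ⟨hp1, hp2⟩
    exact ⟨hy1 _ hp1, hα1 _ hp1, hp2⟩
  have h2 : ContinuousOn (fun p : Q × Fb R m =>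
      f (H573.mk R m (yq p.1) (αq p.1) p.2))
      {p | p.1 ∈ D ∧ p.2 ∈ domF R m far (yq p.1) (αq p.1)} :=
    ContinuousOn.comp (g := fun q : BF R m =>
      f (H573.mk R m q.1.1 q.1.2 q.2)) hcm h1.continuousOn hmaps
  have h3 : ContinuousOn (fun p : Q × Fb R m => v ((yq p.1, αq p.1), p.2))
      {p | p.1 ∈ D ∧ p.2 ∈ domF R m far (yq p.1) (αq p.1)} :=
    ContinuousOn.comp (g := v) hv h1.continuousOn hmaps
  exact meas_ev μ hS h2 h3

end Meas

/-- value of the form on a fixed frame -/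
def evR {R : H95.Region} {m : ∀ k, Fin (R.n k + 1)} (f : Co R m → Alt (16 + 14) (Co R m))
    (v : Fin (16 + 14) → Co R m) (q : BF R m) : ℝ := f (H573.mk R m q.1.1 q.1.2 q.2) v

theorem evR_mk {R : H95.Region} {m : ∀ k, Fin (R.n k + 1)}
    (f : Co R m → Alt (16 + 14) (Co R m)) (v : Fin (16 + 14) → Co R m) (y α : Fin 3 → ℝ)
    (x : Fb R m) : evR f v ((y, α), x) = f (H573.mk R m y α x) v := rfl

/-- value of the form on a fixed frame -/
def evL {R : H95.Region} {m : ∀ k, Fin (R.n k + 1)}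
    (f : Finset (W R m).Fr → Co R m → Alt (16 + 14) (Co R m))
    (v : Fin (16 + 14) → Co R m) (B : Finset (W R m).Fr) (p : Co R m) : ℝ := f B p v

theorem evL_eq {R : H95.Region} {m : ∀ k, Fin (R.n k + 1)}
    (f : Finset (W R m).Fr → Co R m → Alt (16 + 14) (Co R m))
    (v : Fin (16 + 14) → Co R m) (B : Finset (W R m).Fr) (p : Co R m) :
    evL f v B p = f B p v := rfl

/-- the integral over the fibre part of a region, of any form -/
def IRf {R : H95.Region} {m : ∀ k, Fin (R.n k + 1)} (f : Co R m → Alt (16 + 14) (Co R m))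
    (far : R.Cm → Bool) (y α : Fin 3 → ℝ) (a b : Co R m → Co R m) : ℝ :=
  ∫ x in domF R m far y α, f (H573.mk R m y α x)
    (fr30 R m (a (H573.mk R m y α x)) (b (H573.mk R m y α x)))

theorem IR_eq (R : H95.Region) (m : ∀ k, Fin (R.n k + 1)) (X : Ext) (Θ : Gauge) (T : MT)
    (far : R.Cm → Bool) (y α : Fin 3 → ℝ) (a b : Co R m → Co R m) :
    IR R m X Θ T far y α a b = IRf (OmR R m X Θ T (Sx R far)) far y α a b := rfl

theorem IRf_const {R : H95.Region} {m : ∀ k, Fin (R.n k + 1)}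
    (f : Co R m → Alt (16 + 14) (Co R m)) (far : R.Cm → Bool) (y α : Fin 3 → ℝ) (a b : Co R m) :
    IRf f far y α (fun _ => a) (fun _ => b) = ∫ x in domF R m far y α,
      evR f (fr30 R m a b) ((y, α), x) := rfl

/-- the limits of the torus contributions for any form `f` with limit `fl` -/
theorem tor_gen (hM1 : MeasDom) (hN1 : MeasExc) (hN2 : NullExc) (hN3 : GenExc)
    (hDL : DomLim) {R : H95.Region} {m : ∀ k, Fin (R.n k + 1)}
    {f : Co R m → Alt (16 + 14) (Co R m)}
    {fl : Finset (W R m).Fr → Co R m → Alt (16 + 14) (Co R m)}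
    {far : R.Cm → Bool} {i j : Fin 3} {C N₁ N₂ : ℝ} (hN₁ : 1 ≤ N₁)
    (hcm : ContinuousOn (fun q : BF R m => f (H573.mk R m q.1.1 q.1.2 q.2))
      {q | (∀ k, N₂ ≤ q.1.1 k) ∧ (∀ k, -7 ≤ q.1.2 k ∧ q.1.2 k ≤ 1) ∧
        q.2 ∈ domF R m far q.1.1 q.1.2})
    (hb : ∀ N, N₁ ≤ N → ∀ α : Fin 3 → ℝ, (∀ k, -7 ≤ α k ∧ α k ≤ 1) →
      ∀ x ∈ domF R m far (yT N) α,
      |f (H573.mk R m (yT N) α x) (fr30 R m ((W R m).vec (.al i)) ((W R m).vec (.al j)))| ≤
        C * ∏ f, max (Real.exp (-x.1.1 f)) (1 / N))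
    (hP : ∀ (B : Finset (W R m).Fr) (p : Co R m), GenS R m (Sx R far) B p →
      Tendsto (fun N : ℝ => N ^ B.card * f ((W R m).dpt (↑B) N p)
        (fr30 R m ((W R m).vec (.al i)) ((W R m).vec (.al j)))) atTop
      (𝓝 (if B.card = 6 then fl B p
        (fr30 R m ((W R m).vec (.al i)) ((W R m).vec (.al j))) else 0))) (c : ℝ) :
    Tendsto (fun N => ∫ s in Icc (0 : Fin 2 → ℝ) 1, IRf f far (yT N) (aT i j s)
      (fun _ => c • (W R m).vec (.al i)) (fun _ => c • (W R m).vec (.al j))) atTop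
      (𝓝 (∑ B ∈ (Finset.univ : Finset (Finset (W R m).Fr)).filter (fun B => B.card = 6),
        ∫ s in Icc (0 : Fin 2 → ℝ) 1, ∫ x in domL R m far B (yT 1),
          fl B (H573.mk R m (yT 1) (aT i j s) x)
            (fr30 R m (c • (W R m).vec (.al i)) (c • (W R m).vec (.al j))))) := by
  obtain ⟨v, hv⟩ : ∃ v : Fin (16 + 14) → Co R m,
    v = fr30 R m (c • (W R m).vec (.al i)) (c • (W R m).vec (.al j)) := ⟨_, rfl⟩
  simp only [IRf_const]
  rw [← hv]
  have hC0 : 0 ≤ max C 0 := le_max_right _ _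
  have haT : Continuous fun s : Fin 2 → ℝ => aT i j s := by
    refine continuous_pi fun k => ?_
    unfold aT
    split_ifs <;> fun_prop
  have hyT : ∀ N : ℝ, (fun k : Fin 3 => N * yT 1 k) = yT N := fun N => by
    funext k
    exact mul_one N
  have hgm : ∀ N, max N₁ N₂ ≤ N → AEStronglyMeasurable
      (fun p : (Fin 2 → ℝ) × Fb R m => evR f v ((fun k => N * yT 1 k, aT i j p.1), p.2))
      (volume.restrict {p : (Fin 2 → ℝ) × Fb R m | p.1 ∈ Icc (0 : Fin 2 → ℝ) 1 ∧
        p.2 ∈ domF R m far (fun k => N * yT 1 k) (aT i j p.1)}) := by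
    intro N hN
    simp only [hyT, evR_mk]
    refine meas_fam (Q := Fin 2 → ℝ) volume hM1 (f := f) hcm measurableSet_Icc
      (yq := fun _ => yT N) (αq := fun s => aT i j s) continuous_const haT ?_
      (fun s hs k => aT_mem i j hs k) (v := fun _ => v) continuousOn_const
    intro _ _ _
    exact (le_max_right _ _).trans hN
  have hbb : ∀ N, max N₁ N₂ ≤ N → ∀ q ∈ Icc (0 : Fin 2 → ℝ) 1,
      ∀ x ∈ domF R m far (fun k => N * yT 1 k) (aT i j q),
      |evR f v ((fun k => N * yT 1 k, aT i j q), x)| ≤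
        c * c * max C 0 * ∏ f : (W R m).Fr,
          max (Real.exp (-x.1.1 f)) (1 / (N * yT 1 ((W R m).nk f.1))) := by
    intro N hN q hq x hx
    rw [hyT] at hx ⊢
    rw [evR_mk, hv, fr30_smul, abs_mul, abs_of_nonneg (mul_self_nonneg c)]
    have h1 := hb N ((le_max_left _ _).trans hN) (aT i j q)
      (fun k => aT_mem i j hq k) x hx
    have h2 : 0 ≤ ∏ f : (W R m).Fr, max (Real.exp (-x.1.1 f)) (1 / N) :=
      Finset.prod_nonneg fun f _ => (Real.exp_pos _).le.trans (le_max_left _ _)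
    have h3 : C * ∏ f : (W R m).Fr, max (Real.exp (-x.1.1 f)) (1 / N) ≤
        max C 0 * ∏ f : (W R m).Fr, max (Real.exp (-x.1.1 f)) (1 / N) :=
      mul_le_mul_of_nonneg_right (le_max_left _ _) h2
    have h4 : ∏ f : (W R m).Fr, max (Real.exp (-x.1.1 f)) (1 / (N * yT 1 ((W R m).nk f.1))) =
        ∏ f : (W R m).Fr, max (Real.exp (-x.1.1 f)) (1 / N) := by
      refine Finset.prod_congr rfl fun f _ => ?_
      rw [yT, mul_one]
    rw [h4, mul_assoc (c * c)]
    exact mul_le_mul_of_nonneg_left (h1.trans h3) (mul_self_nonneg _)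
  have hll : ∀ q ∈ Icc (0 : Fin 2 → ℝ) 1, ∀ (B : Finset (W R m).Fr) (x : Fb R m),
      GenS R m (Sx R far) B (H573.mk R m (yT 1) (aT i j q) x) →
      Tendsto (fun N : ℝ => N ^ B.card * evR f v ((fun k => N * yT 1 k, aT i j q),
        dilF R m B N x)) atTop
        (𝓝 (if B.card = 6 then evL fl v B (H573.mk R m (yT 1) (aT i j q) x) else 0)) := by
    intro q hq B x hG
    have h2 := (hP B _ hG).const_mul (c * c)
    have h3 : c * c * (if B.card = 6 then
        fl B (H573.mk R m (yT 1) (aT i j q) x)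
          (fr30 R m ((W R m).vec (.al i)) ((W R m).vec (.al j))) else 0) =
        if B.card = 6 then evL fl v B (H573.mk R m (yT 1) (aT i j q) x) else 0 := by
      split_ifs
      · rw [evL_eq, hv, fr30_smul]
      · rw [mul_zero]
    rw [h3] at h2
    refine h2.congr fun N => ?_
    rw [evR_mk, hv, fr30_smul, mk_dilF]
    ring
  have key := core_limit (R := R) (m := m) (Q := Fin 2 → ℝ) hM1 hN1 hN2 hN3 hDL far
    (D := Icc (0 : Fin 2 → ℝ) 1) measurableSet_Icc (yq := fun _ => yT 1) (αq := fun s => aT i j s)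
    measurable_const haT.measurable (fun _ _ _ => le_rfl) (fun s hs k => aT_mem i j hs k)
    (g := fun _ => evR f v) (N₀ := max N₁ N₂) (hN₁.trans (le_max_left _ _))
    hgm (C := fun _ => c * c * max C 0)
    (fun _ _ => mul_nonneg (mul_self_nonneg _) hC0)
    (integrableOn_const (by
      rw [Real.volume_Icc_pi]
      exact ENNReal.prod_ne_top fun _ _ => ENNReal.ofReal_ne_top) enorm_ne_top) hbb
    (gl := evL fl v) hll
  simp only [hyT, evL_eq] at key
  exact key

/-- **(S5a)** the limits of the torus contributions. -/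
theorem limRegT (hM1 : MeasDom) (hN1 : MeasExc) (hN2 : NullExc) (hN3 : GenExc) (hDL : DomLim)
    {X : Ext} {Θ : Gauge} (hM2 : ContOm X Θ) (hB : BdT X Θ) (hP : PtT X Θ) : LimRegT X Θ := by
  intro T hT hW R m far i j _
  obtain ⟨C, N₁, hN₁, hb⟩ := hB T hT hW
  obtain ⟨N₂, hc⟩ := hM2
  unfold torR torL
  simp only [IR_eq]
  exact tor_gen hM1 hN1 hN2 hN3 hDL hN₁ (hc T hT R m far)
    (fun N hN α hα x hx => hb R m far N hN α hα x hx i j)
    (fun B p hG => hP T hT hW R m far B p hG i j) _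

end Vale.Agent.P273.H562

end
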