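import Mathlib

/-!
# P273, LIM-G-CUT: logarithmic derivatives of the distances to the roots in a neck

In a neck `X Y = d ^ 2`, `x = e + (X + Y) / 2`, the roots are `e + d`, `e - d`.  Along a curve the
logarithmic derivatives of `X`, `Y` are `ξ`, `η`.
-/

namespace Vale.Agent.P273.H562

open Complex

/-- the roots of `z ^ 2 - 2 t z + 2 c t` are bounded by `t` when `c` is -/
theorem pair_le {A B t c : ℂ} {M : ℝ} (h1 : A + B = 2 * t) (h2 : A * B = 2 * c * t) (hM : 0 ≤ M)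
    (hc : ‖c‖ ≤ M * ‖t‖) : ‖A‖ ≤ (2 + M) * ‖t‖ := by
  have h3 : (A - t) ^ 2 = t ^ 2 - 2 * c * t := by
    have hB : B = 2 * t - A := by linear_combination h1
    rw [hB] at h2
    linear_combination -h2
  have h4 : ‖A - t‖ ^ 2 ≤ ((1 + M) * ‖t‖) ^ 2 := by
    rw [← norm_pow, h3]
    calc ‖t ^ 2 - 2 * c * t‖ ≤ ‖t ^ 2‖ + ‖2 * c * t‖ := norm_sub_le _ _
      _ = ‖t‖ ^ 2 + 2 * ‖c‖ * ‖t‖ := by simp [norm_pow]
      _ ≤ ‖t‖ ^ 2 + 2 * (M * ‖t‖) * ‖t‖ := by gcongr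
      _ ≤ _ := by nlinarith [sq_nonneg (M * ‖t‖), norm_nonneg t]
  have h5 : ‖A - t‖ ≤ (1 + M) * ‖t‖ := le_of_sq_le_sq h4 (by positivity)
  calc ‖A‖ = ‖(A - t) + t‖ := by ring_nf
    _ ≤ ‖A - t‖ + ‖t‖ := norm_add_le _ _
    _ ≤ (1 + M) * ‖t‖ + ‖t‖ := by gcongr
    _ = _ := by ring

/-- the distance to the root `e + d` (take `-d` for the other root) -/
noncomputable def tt (X Y d : ℂ) : ℂ := (X + Y) / 2 - d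

/-- its derivative when the logarithmic derivatives of `X`, `Y` are `ξ`, `η` -/
noncomputable def tt' (X Y d ξ η : ℂ) : ℂ := (ξ * X + η * Y) / 2 - d * (ξ + η) / 2

theorem tt'_eq (X Y d ξ η : ℂ) : tt' X Y d ξ η = (ξ * (X - d) + η * (Y - d)) / 2 := by
  unfold tt'; ring

theorem tt'_eq_left (X Y d ξ η : ℂ) :
    tt' X Y d ξ η - ξ * tt X Y d = (η - ξ) * (Y - d) / 2 := by
  unfold tt' tt; ring

theorem tt'_eq_right (X Y d ξ η : ℂ) :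
    tt' X Y d ξ η - η * tt X Y d = (ξ - η) * (X - d) / 2 := by
  unfold tt' tt; ring

theorem tt_comm (X Y d : ℂ) : tt X Y d = tt Y X d := by unfold tt; ring

theorem sub_le_tt {X Y d : ℂ} (h : X * Y = d ^ 2) {M : ℝ} (hM : 0 ≤ M)
    (hd : ‖d‖ ≤ M * ‖tt X Y d‖) :
    ‖X - d‖ ≤ (2 + M) * ‖tt X Y d‖ ∧ ‖Y - d‖ ≤ (2 + M) * ‖tt X Y d‖ := by
  have h1 : (X - d) + (Y - d) = 2 * tt X Y d := by unfold tt; ring
  have h2 : (X - d) * (Y - d) = 2 * (-d) * tt X Y d := by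
    unfold tt
    linear_combination h
  have hd' : ‖-d‖ ≤ M * ‖tt X Y d‖ := by rwa [norm_neg]
  exact ⟨pair_le h1 h2 hM hd',
    pair_le (by rw [add_comm]; exact h1) (by rw [mul_comm (Y - d)]; exact h2) hM hd'⟩

/-- **bounded logarithmic derivative of the distance to a root in its neck** -/
theorem norm_tt'_le {X Y d : ℂ} (h : X * Y = d ^ 2) {M : ℝ} (hM : 0 ≤ M)
    (hd : ‖d‖ ≤ M * ‖tt X Y d‖) {ξ η : ℂ} {K : ℝ} (hξ : ‖ξ‖ ≤ K) (hη : ‖η‖ ≤ K) :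
    ‖tt' X Y d ξ η‖ ≤ K * (2 + M) * ‖tt X Y d‖ := by
  have hK : 0 ≤ K := (norm_nonneg _).trans hξ
  obtain ⟨h1, h2⟩ := sub_le_tt h hM hd
  rw [tt'_eq]
  calc ‖(ξ * (X - d) + η * (Y - d)) / 2‖ = ‖ξ * (X - d) + η * (Y - d)‖ / 2 := by simp
    _ ≤ (‖ξ‖ * ‖X - d‖ + ‖η‖ * ‖Y - d‖) / 2 := by
        gcongr
        exact (norm_add_le _ _).trans (by rw [norm_mul, norm_mul])
    _ ≤ (K * ((2 + M) * ‖tt X Y d‖) + K * ((2 + M) * ‖tt X Y d‖)) / 2 := by gcongr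
    _ = _ := by ring

/-- far from the middle of the neck, on the side of `X` -/
theorem norm_tt_ge {X Y d : ℂ} {ρ : ℝ} (h0 : 0 ≤ ρ) (h8 : ρ ≤ 1 / 8) (hd : ‖d‖ ≤ ρ * ‖X‖)
    (hY : ‖Y‖ ≤ ρ * ‖X‖) : ‖X‖ / 4 ≤ ‖tt X Y d‖ := by
  have h1 : X / 2 = tt X Y d - (Y / 2 - d) := by unfold tt; ring
  have h2 : ‖X‖ / 2 ≤ ‖tt X Y d‖ + (‖Y‖ / 2 + ‖d‖) := by
    calc ‖X‖ / 2 = ‖X / 2‖ := by simp
      _ = ‖tt X Y d - (Y / 2 - d)‖ := by rw [h1]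
      _ ≤ ‖tt X Y d‖ + ‖Y / 2 - d‖ := norm_sub_le _ _
      _ ≤ ‖tt X Y d‖ + (‖Y / 2‖ + ‖d‖) := by gcongr; exact norm_sub_le _ _
      _ = _ := by simp
  have h3 : ρ * ‖X‖ ≤ 1 / 8 * ‖X‖ := by gcongr
  have := norm_nonneg X
  nlinarith

theorem norm_tt_le {X Y d : ℂ} {ρ : ℝ} (h8 : ρ ≤ 1 / 8) (hd : ‖d‖ ≤ ρ * ‖X‖)
    (hY : ‖Y‖ ≤ ρ * ‖X‖) : ‖tt X Y d‖ ≤ ‖X‖ := by
  have h3 : ρ * ‖X‖ ≤ 1 / 8 * ‖X‖ := by gcongr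
  have := norm_nonneg X
  calc ‖tt X Y d‖ ≤ ‖(X + Y) / 2‖ + ‖d‖ := norm_sub_le _ _
    _ = ‖X + Y‖ / 2 + ‖d‖ := by simp
    _ ≤ (‖X‖ + ‖Y‖) / 2 + ‖d‖ := by gcongr; exact norm_add_le _ _
    _ ≤ ‖X‖ := by linarith

/-- **far from the middle of the neck, on the side of `X`, the distance to the roots has the
logarithmic derivative `ξ`, up to `ρ`** -/
theorem norm_tt'_sub_le {X Y d : ℂ} {ρ : ℝ} (h0 : 0 ≤ ρ) (h8 : ρ ≤ 1 / 8) (hd : ‖d‖ ≤ ρ * ‖X‖)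
    (hY : ‖Y‖ ≤ ρ * ‖X‖) {ξ η : ℂ} {K : ℝ} (hξ : ‖ξ‖ ≤ K) (hη : ‖η‖ ≤ K) :
    ‖tt' X Y d ξ η - ξ * tt X Y d‖ ≤ 8 * K * ρ * ‖tt X Y d‖ := by
  have hK : 0 ≤ K := (norm_nonneg _).trans hξ
  rw [tt'_eq_left]
  have h1 := norm_tt_ge h0 h8 hd hY
  calc ‖(η - ξ) * (Y - d) / 2‖ = ‖η - ξ‖ * ‖Y - d‖ / 2 := by simp
    _ ≤ (K + K) * (ρ * ‖X‖ + ρ * ‖X‖) / 2 := by
        gcongr
        · exact (norm_sub_le _ _).trans (add_le_add hη hξ)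
        · exact (norm_sub_le _ _).trans (add_le_add hY hd)
    _ = 8 * K * ρ * (‖X‖ / 4) := by ring
    _ ≤ _ := by gcongr

end Vale.Agent.P273.H562
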