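import Vale.Agent.P273.H562.RegDefs
import Vale.Agent.P273.H261.Part

/-!
# P273, LIM step 5: the common core of the limits of the regions
-/

noncomputable section

namespace Vale.Agent.P273.H562

open Set Filter MeasureTheory H681 H95 H732 H573
open scoped Topology ContDiff

section Arr

variable {Q U V C : Type*} [MeasureSpace Q] [MeasureSpace U] [MeasureSpace V] [MeasureSpace C]
  [SigmaFinite (volume : Measure Q)] [SigmaFinite (volume : Measure U)]
  [SigmaFinite (volume : Measure V)] [SigmaFinite (volume : Measure C)]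

/-- rearrangement of the coordinates -/
def arr (Q U V C : Type*) [MeasurableSpace Q] [MeasurableSpace U] [MeasurableSpace V]
    [MeasurableSpace C] : U × (Q × (V × C)) ≃ᵐ Q × ((U × V) × C) where
  toFun p := (p.2.1, ((p.1, p.2.2.1), p.2.2.2))
  invFun p := (p.2.1.1, (p.1, (p.2.1.2, p.2.2)))
  left_inv _ := rfl
  right_inv _ := rfl
  measurable_toFun := by
    refine measurable_snd.fst.prodMk ((measurable_fst.prodMk ?_).prodMk ?_)
    · exact measurable_snd.snd.fst
    · exact measurable_snd.snd.snd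
  measurable_invFun := by
    refine (measurable_snd.fst.fst).prodMk (measurable_fst.prodMk (?_))
    exact measurable_snd.fst.snd.prodMk measurable_snd.snd

theorem mp_arr : MeasurePreserving (arr Q U V C) volume volume := by
  -- (u, (q, (v, c))) → ((u, q), (v, c)) → ((q, u), (v, c)) → (q, (u, (v, c))) → (q, ((u, v), c))
  have h1 : MeasurePreserving (MeasurableEquiv.prodAssoc (α := U) (β := Q) (γ := V × C)).symm
      volume volume := volume_preserving_prodAssoc.symm
  have h2 : MeasurePreserving (Prod.map (Prod.swap : U × Q → Q × U) (id : V × C → V × C))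
      (volume : Measure ((U × Q) × (V × C))) (volume : Measure ((Q × U) × (V × C))) :=
    Measure.measurePreserving_swap.prod (MeasurePreserving.id _)
  have h3 : MeasurePreserving (MeasurableEquiv.prodAssoc (α := Q) (β := U) (γ := V × C))
      volume volume := volume_preserving_prodAssoc
  have h4 : MeasurePreserving (MeasurableEquiv.prodAssoc (α := U) (β := V) (γ := C)).symm
      volume volume := volume_preserving_prodAssoc.symm
  have h5 : MeasurePreserving (Prod.map (id : Q → Q)
      (MeasurableEquiv.prodAssoc (α := U) (β := V) (γ := C)).symm)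
      (volume : Measure (Q × (U × (V × C)))) (volume : Measure (Q × ((U × V) × C))) :=
    (MeasurePreserving.id _).prod h4
  exact h5.comp (h3.comp (h2.comp h1))

end Arr

section Bound

variable {I Z : Type*} [Fintype I] [DecidableEq I] [MeasurableSpace Z]

open H261 in
/-- the product majorant is integrable -/
theorem integrable_of_maj (μ : Measure Z) [SFinite μ] {N : ℝ} (hN : 1 ≤ N)
    {y : I → Z → ℝ} (hym : ∀ i, Measurable (y i)) (hy : ∀ i z, 1 ≤ y i z) {C : Z → ℝ}
    (hC0 : ∀ z, 0 ≤ C z) (hC : Integrable C μ) {h : (I → ℝ) × Z → ℝ}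
    (hm : AEStronglyMeasurable h ((volume : Measure (I → ℝ)).prod μ))
    (hb : ∀ u z, (∀ i, 0 ≤ u i) → (∀ i, u i ≤ 1 * y i z * N) →
      ‖h (u, z)‖ ≤ C z * ∏ i, max (Real.exp (-(u i))) (y i z * N)⁻¹)
    (hs : ∀ u z, ¬ ((∀ i, 0 ≤ u i) ∧ ∀ i, u i ≤ 1 * y i z * N) → h (u, z) = 0) :
    Integrable h ((volume : Measure (I → ℝ)).prod μ) := by
  have hN0 : 0 < N := zero_lt_one.trans_le hN
  have hy' : ∀ i z, 1 ≤ y i z * N := fun i z => one_le_mul_of_one_le_of_one_le (hy i z) hN
  have hi : ∀ B : Finset I, Integrable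
      (fun p : (I → ℝ) × Z => majP B 1 (fun i => y i p.2 * N) p.1 * C p.2)
      ((volume : Measure (I → ℝ)).prod μ) := fun B =>
    integrable_majP_prod B μ zero_le_one (fun i => (hym i).mul_const N) hy' hC0 hC
  have hsum := integrable_finsetSum (Finset.univ : Finset (Finset I)) fun B _ => hi B
  refine hsum.mono' hm (Eventually.of_forall fun p => ?_)
  obtain ⟨u, z⟩ := p
  by_cases hd : (∀ i, 0 ≤ u i) ∧ ∀ i, u i ≤ 1 * y i z * N
  swap
  · rw [hs u z hd, norm_zero]
    exact Finset.sum_nonneg fun B _ => mul_nonneg (majP_nonneg _ _ (fun i => hy' i z) _) (hC0 z)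
  refine (hb u z hd.1 hd.2).trans ?_
  have h1 : ∏ i, max (Real.exp (-(u i))) (y i z * N)⁻¹ ≤
      ∏ i, ((y i z * N)⁻¹ + Real.exp (-(u i))) := by
    refine Finset.prod_le_prod (fun i _ => (Real.exp_pos _).le.trans (le_max_left _ _))
      fun i _ => ?_
    have h2 : 0 ≤ (y i z * N)⁻¹ := inv_nonneg.2 (zero_le_one.trans (hy' i z))
    have h3 := (Real.exp_pos (-(u i))).le
    refine max_le ?_ ?_
    · linarith
    · linarith
  have h2 : ∏ i, ((y i z * N)⁻¹ + Real.exp (-(u i))) =
      ∑ B : Finset I, majP B 1 (fun i => y i z * N) u := by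
    rw [Finset.prod_add]
    rw [Finset.powerset_univ]
    refine Finset.sum_congr rfl fun B _ => ?_
    have h4 : majP B 1 (fun i => y i z * N) u =
        ∏ i, if i ∈ B then (y i z * N)⁻¹ else Real.exp (-(u i)) := by
      rw [majP]
      refine Finset.prod_congr rfl fun i _ => ?_
      by_cases hiB : i ∈ B
      · rw [if_pos hiB, if_pos hiB, Set.indicator_of_mem, mul_one]
        refine ⟨hd.1 i, ?_⟩
        have := hd.2 i
        rwa [mul_assoc] at this
      · rw [if_neg hiB, if_neg hiB, Set.indicator_of_mem]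
        exact hd.1 i
    rw [h4, Finset.prod_ite]
    congr 1
    · congr 1
      ext i; simp
    · congr 1
      ext i; simp
  rw [h2] at h1
  calc C z * ∏ i, max (Real.exp (-(u i))) (y i z * N)⁻¹
      ≤ C z * ∑ B : Finset I, majP B 1 (fun i => y i z * N) u :=
        mul_le_mul_of_nonneg_left h1 (hC0 z)
    _ = _ := by rw [mul_comm, Finset.sum_mul]

end Bound

section Core

variable (R : H95.Region) (m : ∀ k, Fin (R.n k + 1))

/-- dilation of the fibre coordinates -/
def dilF (B : Finset (W R m).Fr) (N : ℝ) (x : Fb R m) : Fb R m :=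
  ((H261.dil B N x.1.1, x.1.2), x.2)

theorem mk_dilF (B : Finset (W R m).Fr) (N : ℝ) (y α : Fin 3 → ℝ) (x : Fb R m) :
    mk R m (fun k => N * y k) α (dilF R m B N x) = (W R m).dpt (↑B) N (mk R m y α x) := by
  refine Prod.ext ?_ rfl
  funext f
  simp only [H573.mk, dilF, H261.dil, H732.Reg.dpt, Finset.mem_coe]

theorem measurable_mk : Measurable fun q : BF R m => mk R m q.1.1 q.1.2 q.2 := by
  unfold H573.mk
  fun_prop

variable {R m}

theorem ul_mk_le (y α : Fin 3 → ℝ) {x : Fb R m} (h : ∀ f, 0 < x.1.1 f) (k : Fin 3) :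
    (W R m).ul (mk R m y α x) k ≤ y k := by
  unfold H732.Reg.ul H573.mk
  have : 0 ≤ ∑ f : (W R m).Fr, if (W R m).nk f.1 = k then x.1.1 f else 0 :=
    Finset.sum_nonneg fun f _ => by
      split_ifs
      · exact (h f).le
      · exact le_rfl
  simp only
  linarith

/-- the compact set of the angles and the core coordinates -/
def KZ (R : H95.Region) (m : ∀ k, Fin (R.n k + 1)) :
    Set (((W R m).Fr → ℝ) × (R.Cm → ℂ)) :=
  (Set.univ.pi fun _ => Icc (-Real.pi) Real.pi) ×ˢ (Set.univ.pi fun _ => Metric.closedBall 0 11)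

theorem isCompact_KZ : IsCompact (KZ R m) :=
  (isCompact_univ_pi fun _ => isCompact_Icc).prod
    (isCompact_univ_pi fun _ => isCompact_closedBall _ _)

theorem mem_KZ {far : R.Cm → Bool} {y α : Fin 3 → ℝ} {x : Fb R m}
    (hx : x ∈ domF R m far y α) : (x.1.2, x.2) ∈ KZ R m := by
  refine ⟨fun f _ => ⟨(hx.2.1 f).1.le, (hx.2.1 f).2⟩, fun c _ => ?_⟩
  have h := hx.2.2 c
  rw [mem_closedBall_zero_iff]
  unfold H573.zone at h
  split_ifs at h
  · exact h.2.le.trans (by norm_num)
  · exact h.1

/-- the domain of the limit is measurable -/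
theorem measurableSet_domL (far : R.Cm → Bool) (B : Finset (W R m).Fr) (y : Fin 3 → ℝ) :
    MeasurableSet (domL R m far B y) := by
  have hz : ∀ b : Bool, MeasurableSet (zone0 b) := by
    intro b
    cases b
    · have : zone0 false = Metric.closedBall 0 11 ∩ ⋂ k, {x : ℂ | 1 / 32 ≤ ‖x - ctr k‖} := by
        ext x
        simp [zone0]
      rw [this]
      refine Metric.isClosed_closedBall.measurableSet.inter (MeasurableSet.iInter fun k => ?_)
      exact measurableSet_le measurable_const (by fun_prop)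
    · have : zone0 true = {0}ᶜ ∩ Metric.ball 0 (1 / 11) := by
        ext x
        simp [zone0]
      rw [this]
      exact (measurableSet_singleton _).compl.inter Metric.isOpen_ball.measurableSet
  have h1 : MeasurableSet {x : Fb R m | ∀ f, 0 < x.1.1 f} := by
    rw [Set.ofPred_forall]
    exact MeasurableSet.iInter fun f => measurableSet_lt measurable_const (by fun_prop)
  have h2 : MeasurableSet {x : Fb R m | ∀ f ∈ B,
      x.1.1 f < szl R m (↑B) (H573.mk R m y 0 x) ((W R m).last ((W R m).nk f.1))} := by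
    rw [Set.ofPred_forall]
    refine MeasurableSet.iInter fun f => ?_
    rw [Set.ofPred_forall]
    refine MeasurableSet.iInter fun _ => measurableSet_lt (by fun_prop) ?_
    unfold szl H573.mk
    split_ifs
    all_goals first
      | fun_prop
      | (refine Measurable.sub (by fun_prop) (Finset.measurable_sum _ fun f' _ => ?_)
         split_ifs <;> fun_prop)
  have h3 : MeasurableSet {x : Fb R m | ∀ f, x.1.2 f ∈ Ioc (-Real.pi) Real.pi} := by
    rw [Set.ofPred_forall]
    exact MeasurableSet.iInter fun f => measurableSet_Ioc.preimage (by fun_prop)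
  have h4 : MeasurableSet {x : Fb R m | ∀ c, x.2 c ∈ zone0 (far c)} := by
    rw [Set.ofPred_forall]
    exact MeasurableSet.iInter fun c => (hz _).preimage (by fun_prop)
  exact h1.inter (h2.inter (h3.inter h4))

/-- the fibres of a set over `D` -/
theorem integral_slices {Q F : Type*} [MeasureSpace Q] [SigmaFinite (volume : Measure Q)]
    [MeasureSpace F] [SigmaFinite (volume : Measure F)] {D : Set Q} (hD : MeasurableSet D)
    {A : Q → Set F} (hA : ∀ q ∈ D, MeasurableSet (A q)) (g : Q → F → ℝ)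
    (hi : Integrable ({p : Q × F | p.1 ∈ D ∧ p.2 ∈ A p.1}.indicator fun p => g p.1 p.2)) :
    ∫ p, {p : Q × F | p.1 ∈ D ∧ p.2 ∈ A p.1}.indicator (fun p => g p.1 p.2) p =
      ∫ q in D, ∫ x in A q, g q x := by
  refine (integral_prod (μ := (volume : Measure Q)) (ν := (volume : Measure F)) _ hi).trans ?_
  rw [← integral_indicator hD]
  refine integral_congr_ae (Eventually.of_forall fun q => ?_)
  simp only
  by_cases hq : q ∈ D
  · rw [Set.indicator_of_mem hq, ← integral_indicator (hA q hq)]
    refine integral_congr_ae (Eventually.of_forall fun x => ?_)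
    by_cases hx : x ∈ A q
    · simp only
      rw [Set.indicator_of_mem hx, Set.indicator_of_mem]
      exact ⟨hq, hx⟩
    · simp only
      rw [Set.indicator_of_notMem hx, Set.indicator_of_notMem]
      exact fun h => hx h.2
  · rw [Set.indicator_of_notMem hq]
    rw [integral_eq_zero_of_ae]
    refine Eventually.of_forall fun x => ?_
    exact Set.indicator_of_notMem (fun h => hq h.1) _

end Core

section Main

variable {R : H95.Region} {m : ∀ k, Fin (R.n k + 1)}

open H261 in
/-- **The limit of the contribution of a region**, for sequences. -/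
theorem core_limit_seq {Q : Type*} [MeasureSpace Q] [SigmaFinite (volume : Measure Q)]
    (hM1 : MeasDom) (hN1 : MeasExc) (hN2 : NullExc) (hN3 : GenExc) (hDL : DomLim)
    (far : R.Cm → Bool) {D : Set Q} (hD : MeasurableSet D) {yq αq : Q → Fin 3 → ℝ}
    (hym : Measurable yq) (hαm : Measurable αq)
    (hy1 : ∀ q ∈ D, ∀ k, 1 ≤ yq q k) (hα1 : ∀ q ∈ D, ∀ k, -7 ≤ αq q k ∧ αq q k ≤ 1)
    {g : ℝ → BF R m → ℝ} {N₀ : ℝ} (hN₀ : 1 ≤ N₀)
    (hgm : ∀ N, N₀ ≤ N → AEStronglyMeasurable
      (fun p : Q × Fb R m => g N ((fun k => N * yq p.1 k, αq p.1), p.2))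
      (volume.restrict {p | p.1 ∈ D ∧ p.2 ∈ domF R m far (fun k => N * yq p.1 k) (αq p.1)}))
    {C : Q → ℝ} (hC0 : ∀ q ∈ D, 0 ≤ C q) (hC : IntegrableOn C D)
    (hb : ∀ N, N₀ ≤ N → ∀ q ∈ D, ∀ x ∈ domF R m far (fun k => N * yq q k) (αq q),
      |g N ((fun k => N * yq q k, αq q), x)| ≤
        C q * ∏ f : (W R m).Fr, max (Real.exp (-x.1.1 f)) (1 / (N * yq q ((W R m).nk f.1))))
    {gl : Finset (W R m).Fr → Co R m → ℝ}
    (hl : ∀ q ∈ D, ∀ (B : Finset (W R m).Fr) (x : Fb R m),
      GenS R m (Sx R far) B (H573.mk R m (yq q) (αq q) x) →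
      Tendsto (fun N => N ^ B.card * g N ((fun k => N * yq q k, αq q), dilF R m B N x)) atTop
        (𝓝 (if B.card = 6 then gl B (H573.mk R m (yq q) (αq q) x) else 0)))
    (N : ℕ → ℝ) (hN : ∀ n, N₀ ≤ N n) (hNt : Tendsto N atTop atTop) :
    Tendsto (fun n => ∫ q in D, ∫ x in domF R m far (fun k => N n * yq q k) (αq q),
        g (N n) ((fun k => N n * yq q k, αq q), x)) atTop
      (𝓝 (∑ B ∈ (Finset.univ : Finset (Finset (W R m).Fr)).filter (fun B => B.card = 6),
        ∫ q in D, ∫ x in domL R m far B (yq q), gl B (H573.mk R m (yq q) (αq q) x))) := by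
  classical
  set e := arr Q ((W R m).Fr → ℝ) ((W R m).Fr → ℝ) (R.Cm → ℂ) with he
  have hep : MeasurePreserving e volume volume := mp_arr
  -- the domains
  set A : ℝ → Set (Q × Fb R m) := fun N =>
    {p | p.1 ∈ D ∧ p.2 ∈ domF R m far (fun k => N * yq p.1 k) (αq p.1)} with hA
  have hAm : ∀ N, MeasurableSet (A N) := by
    intro N
    refine (hD.preimage measurable_fst).inter ?_
    have h1 : Measurable fun p : Q × Fb R m =>
        (((fun k => N * yq p.1 k, αq p.1), p.2) : BF R m) := by
      refine Measurable.prodMk (Measurable.prodMk ?_ (hαm.comp measurable_fst)) measurable_snd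
      exact measurable_pi_lambda _ fun k =>
        ((measurable_pi_apply k).comp (hym.comp measurable_fst)).const_mul N
    exact (hM1 R m far).preimage h1
  set f : ℝ → Q × Fb R m → ℝ := fun N => (A N).indicator
    fun p => g N ((fun k => N * yq p.1 k, αq p.1), p.2) with hf
  set fl : Finset (W R m).Fr → Q × Fb R m → ℝ := fun B =>
    {p : Q × Fb R m | p.1 ∈ D ∧ p.2 ∈ domL R m far B (yq p.1)}.indicator
      fun p => if B.card = 6 then gl B (H573.mk R m (yq p.1) (αq p.1) p.2) else 0 with hfl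
  -- sizes
  set yi : (W R m).Fr → Q × (((W R m).Fr → ℝ) × (R.Cm → ℂ)) → ℝ := fun i z =>
    max 1 (yq z.1 ((W R m).nk i.1)) with hyi
  have hyim : ∀ i, Measurable (yi i) := fun i =>
    measurable_const.max ((measurable_pi_apply _).comp (hym.comp measurable_fst))
  have hyi1 : ∀ i z, 1 ≤ yi i z := fun i z => le_max_left _ _
  set Cz : Q × (((W R m).Fr → ℝ) × (R.Cm → ℂ)) → ℝ := fun z =>
    D.indicator C z.1 * (KZ R m).indicator (fun _ => (1 : ℝ)) z.2 with hCz
  have hCz0 : ∀ z, 0 ≤ Cz z := fun z =>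
    mul_nonneg (Set.indicator_nonneg (fun q hq => hC0 q hq) _)
      (Set.indicator_nonneg (fun _ _ => zero_le_one) _)
  have hCzi : Integrable Cz (volume : Measure (Q × (((W R m).Fr → ℝ) × (R.Cm → ℂ)))) := by
    refine Integrable.mul_prod ((integrable_indicator_iff hD).2 hC) ?_
    refine (integrable_indicator_iff isCompact_KZ.measurableSet).2 ?_
    exact integrableOn_const isCompact_KZ.measure_lt_top.ne (by simp)
  -- facts on the domain
  have hdom : ∀ M, N₀ ≤ M → ∀ p : Q × Fb R m, p ∈ A M →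
      (∀ i, 0 < p.2.1.1 i) ∧ (∀ i, p.2.1.1 i ≤ 1 * yi i (p.1, (p.2.1.2, p.2.2)) * M) ∧
      (p.2.1.2, p.2.2) ∈ KZ R m := by
    intro M hM p hp
    refine ⟨fun i => (hp.2.1 i).1, fun i => ?_, mem_KZ hp.2⟩
    have h1 := (hp.2.1 i).2.le.trans
      (ul_mk_le (fun k => M * yq p.1 k) (αq p.1) (fun f => (hp.2.1 f).1) ((W R m).nk i.1))
    have h2 : yq p.1 ((W R m).nk i.1) ≤ yi i (p.1, (p.2.1.2, p.2.2)) := le_max_right _ _
    have hM0 : 0 ≤ M := zero_le_one.trans (hN₀.trans hM)
    nlinarith
  have hfm : ∀ M, N₀ ≤ M → AEStronglyMeasurable (f M) volume := fun M hM =>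
    (aestronglyMeasurable_indicator_iff (hAm M)).2 (hgm M hM)
  have hhm : ∀ M, N₀ ≤ M → AEStronglyMeasurable (fun p => f M (e p)) volume := fun M hM =>
    (hfm M hM).comp_measurePreserving hep
  have hhb : ∀ M, N₀ ≤ M → ∀ (u : (W R m).Fr → ℝ) (z : Q × (((W R m).Fr → ℝ) × (R.Cm → ℂ))),
      (∀ i, 0 ≤ u i) → (∀ i, u i ≤ 1 * yi i z * M) →
      ‖f M (e (u, z))‖ ≤ Cz z * ∏ i, max (Real.exp (-(u i))) (yi i z * M)⁻¹ := by
    intro M hM u z _ _
    by_cases hp : e (u, z) ∈ A M
    swap
    · rw [hf]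
      simp only
      rw [Set.indicator_of_notMem hp, norm_zero]
      exact mul_nonneg (hCz0 z) (Finset.prod_nonneg fun i _ =>
        (Real.exp_pos _).le.trans (le_max_left _ _))
    rw [hf]
    simp only
    rw [Set.indicator_of_mem hp, Real.norm_eq_abs]
    have h1 := hb M hM z.1 hp.1 ((u, z.2.1), z.2.2) hp.2
    refine h1.trans (le_of_eq ?_)
    have h2 : Cz z = C z.1 := by
      rw [hCz]
      simp only
      rw [Set.indicator_of_mem (show z.1 ∈ D from hp.1),
        Set.indicator_of_mem (show z.2 ∈ KZ R m from (hdom M hM _ hp).2.2), mul_one]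
    rw [h2]
    congr 1
    refine Finset.prod_congr rfl fun i _ => ?_
    rw [hyi]
    simp only
    rw [max_eq_right (hy1 z.1 hp.1 _), one_div, mul_comm M]
  have hhs : ∀ M, N₀ ≤ M → ∀ (u : (W R m).Fr → ℝ) (z : Q × (((W R m).Fr → ℝ) × (R.Cm → ℂ))),
      ¬ ((∀ i, 0 ≤ u i) ∧ ∀ i, u i ≤ 1 * yi i z * M) → f M (e (u, z)) = 0 := by
    intro M hM u z hnot
    rw [hf]
    simp only
    refine Set.indicator_of_notMem (fun hp => hnot ?_) _
    obtain ⟨h1, h2, -⟩ := hdom M hM _ hp
    exact ⟨fun i => (h1 i).le, h2⟩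
  -- the exceptional set
  have hexc : ∀ B : Finset (W R m).Fr, ∀ᵐ p : Q × Fb R m,
      p.1 ∈ D → H573.mk R m (yq p.1) (αq p.1) p.2 ∉ Exc R m B := by
    intro B
    have hS : MeasurableSet {p : Q × Fb R m | p.1 ∈ D ∧
        H573.mk R m (yq p.1) (αq p.1) p.2 ∈ Exc R m B} := by
      refine (hD.preimage measurable_fst).inter ?_
      have h1 : Measurable fun p : Q × Fb R m => (((yq p.1, αq p.1), p.2) : BF R m) :=
        ((hym.comp measurable_fst).prodMk (hαm.comp measurable_fst)).prodMk measurable_snd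
      exact (hN1 R m B).preimage h1
    have h0 : (volume : Measure (Q × Fb R m)) {p : Q × Fb R m | p.1 ∈ D ∧
        H573.mk R m (yq p.1) (αq p.1) p.2 ∈ Exc R m B} = 0 := by
      rw [Measure.volume_eq_prod, Measure.measure_prod_null hS]
      refine Eventually.of_forall fun q => ?_
      by_cases hq : q ∈ D
      · have h2 := hN2 R m B (yq q) (αq q) fun k => zero_lt_one.trans_le (hy1 q hq k)
        refine measure_mono_null (fun x hx => ?_) h2
        exact fun h => h hx.2
      · refine measure_mono_null (fun x hx => ?_) (measure_empty (μ := volume))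
        exact absurd hx.1 hq
    refine measure_mono_null (fun p hp => ?_) h0
    simp only [Set.mem_compl_iff, Set.mem_ofPred_eq, not_forall, not_not] at hp
    exact ⟨hp.1, hp.2⟩
  have hlim : ∀ B : Finset (W R m).Fr,
      ∀ᵐ p ∂((volume : Measure ((W R m).Fr → ℝ)).prod
        (volume : Measure (Q × (((W R m).Fr → ℝ) × (R.Cm → ℂ))))), (∀ i ∈ B, 0 < p.1 i) →
      Tendsto (fun n => (N n) ^ B.card • f (N n) (e (dil B (N n) p.1, p.2))) atTop
        (𝓝 (fl B (e p))) := by
    intro B
    have h1 := hep.quasiMeasurePreserving.ae (hexc B)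
    filter_upwards [h1] with p hp hpos
    obtain ⟨u, q, φ, c⟩ := p
    have hx0 : ∀ M : ℝ, e (dil B M u, (q, φ, c)) = (q, dilF R m B M ((u, φ), c)) := fun _ => rfl
    have hx1 : e (u, (q, φ, c)) = (q, ((u, φ), c)) := rfl
    simp only [hx0, hx1]
    rw [hx1] at hp
    by_cases hq : q ∈ D
    swap
    · have h2 : fl B (q, ((u, φ), c)) = 0 := Set.indicator_of_notMem (fun h => hq h.1) _
      rw [h2]
      refine tendsto_const_nhds.congr fun n => ?_
      have h3 : f (N n) (q, dilF R m B (N n) ((u, φ), c)) = 0 :=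
        Set.indicator_of_notMem (fun h => hq h.1) _
      rw [h3, smul_zero]
    have hne := hp hq
    have hy0 : ∀ k, 0 < yq q k := fun k => zero_lt_one.trans_le (hy1 q hq k)
    have hev := hDL R m far B (yq q) (αq q) hy0 (hα1 q hq) ((u, φ), c) hpos hne
    have hev' : ∀ᶠ M : ℝ in atTop, ((q, dilF R m B M ((u, φ), c)) ∈ A M ↔
        ((u, φ), c) ∈ domL R m far B (yq q)) := by
      filter_upwards [hev] with M hM
      rw [← hM]
      constructor
      · intro h
        have := h.2
        rwa [dilF, show dil B M u = ((W R m).dpt (↑B) M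
          (H573.mk R m (yq q) (αq q) ((u, φ), c))).1 from congrArg Prod.fst
            (mk_dilF R m B M (yq q) (αq q) ((u, φ), c))] at this
      · intro h
        refine ⟨hq, ?_⟩
        have h4 : dil B M u = ((W R m).dpt (↑B) M
          (H573.mk R m (yq q) (αq q) ((u, φ), c))).1 := congrArg Prod.fst
            (mk_dilF R m B M (yq q) (αq q) ((u, φ), c))
        rw [← h4] at h
        exact h
    by_cases hx : ((u, φ), c) ∈ domL R m far B (yq q)
    · have hG := hN3 R m far B (yq q) (αq q) hy0 (hα1 q hq) _ hx hne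
      have h5 := (hl q hq B _ hG).comp hNt
      have h6 : fl B (q, ((u, φ), c)) =
          if B.card = 6 then gl B (H573.mk R m (yq q) (αq q) ((u, φ), c)) else 0 :=
        Set.indicator_of_mem (show (q, ((u, φ), c)) ∈
          {p : Q × Fb R m | p.1 ∈ D ∧ p.2 ∈ domL R m far B (yq p.1)} from ⟨hq, hx⟩) _
      rw [h6]
      refine h5.congr' ?_
      filter_upwards [hNt.eventually hev'] with n hn
      have h7 : f (N n) (q, dilF R m B (N n) ((u, φ), c)) =
          g (N n) ((fun k => N n * yq q k, αq q), dilF R m B (N n) ((u, φ), c)) :=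
        Set.indicator_of_mem (hn.2 hx) _
      rw [h7, smul_eq_mul]
      rfl
    · have h2 : fl B (q, ((u, φ), c)) = 0 := Set.indicator_of_notMem (fun h => hx h.2) _
      rw [h2]
      refine tendsto_const_nhds.congr' ?_
      filter_upwards [hNt.eventually hev'] with n hn
      have h3 : f (N n) (q, dilF R m B (N n) ((u, φ), c)) = 0 :=
        Set.indicator_of_notMem (fun h => hx (hn.1 h)) _
      rw [h3, smul_zero]
  have hl0 : ∀ (B : Finset (W R m).Fr) (p), (∃ i ∈ B, p.1 i < 0) → fl B (e p) = 0 := by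
    rintro B p ⟨i, -, hi⟩
    refine Set.indicator_of_notMem (fun h => ?_) _
    have := h.2.1 i
    exact absurd this (not_lt.2 hi.le)
  have key := part_limit (E := ℝ) (volume : Measure (Q × (((W R m).Fr → ℝ) × (R.Cm → ℂ)))) N
    (fun n => hN₀.trans (hN n)) hNt zero_le_one hyim hyi1 hCz0 hCzi
    (fun n p => f (N n) (e p)) (fun B p => fl B (e p)) (fun n => hhm _ (hN n))
    (fun n => hhb _ (hN n)) (fun n => hhs _ (hN n)) hlim hl0
  obtain ⟨hint, hT⟩ := key
  -- the integrals
  have hfi : ∀ M, N₀ ≤ M → Integrable (f M) volume := by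
    intro M hM
    have h1 : Integrable (fun p => f M (e p)) ((volume : Measure ((W R m).Fr → ℝ)).prod
        (volume : Measure (Q × (((W R m).Fr → ℝ) × (R.Cm → ℂ))))) :=
      integrable_of_maj _ (hN₀.trans hM) hyim hyi1 hCz0 hCzi (hhm M hM) (hhb M hM) (hhs M hM)
    exact (hep.integrable_comp_emb e.measurableEmbedding).1 h1
  have hfli : ∀ B, Integrable (fl B) volume := fun B =>
    (hep.integrable_comp_emb e.measurableEmbedding).1 (hint B)
  have hI : ∀ M, N₀ ≤ M → ∫ p, f M (e p) ∂((volume : Measure ((W R m).Fr → ℝ)).prod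
      (volume : Measure (Q × (((W R m).Fr → ℝ) × (R.Cm → ℂ))))) =
      ∫ q in D, ∫ x in domF R m far (fun k => M * yq q k) (αq q),
        g M ((fun k => M * yq q k, αq q), x) := by
    intro M hM
    have h1 := hep.integral_comp e.measurableEmbedding (f M)
    refine h1.trans ?_
    refine integral_slices hD (A := fun q => domF R m far (fun k => M * yq q k) (αq q))
      (fun q hq => ?_) (fun q x => g M ((fun k => M * yq q k, αq q), x)) (hfi M hM)
    have h2 : Measurable fun x : Fb R m => (((fun k => M * yq q k, αq q), x) : BF R m) :=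
      measurable_const.prodMk measurable_id
    exact (hM1 R m far).preimage h2
  have hIl : ∀ B : Finset (W R m).Fr, ∫ p, fl B (e p) ∂((volume : Measure ((W R m).Fr → ℝ)).prod
      (volume : Measure (Q × (((W R m).Fr → ℝ) × (R.Cm → ℂ))))) =
      if B.card = 6 then ∫ q in D, ∫ x in domL R m far B (yq q),
        gl B (H573.mk R m (yq q) (αq q) x) else 0 := by
    intro B
    have h1 := hep.integral_comp e.measurableEmbedding (fl B)
    refine h1.trans ?_
    have h2 := integral_slices hD (A := fun q => domL R m far B (yq q))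
      (fun q _ => measurableSet_domL far B (yq q))
      (fun q x => if B.card = 6 then gl B (H573.mk R m (yq q) (αq q) x) else 0) (hfli B)
    refine h2.trans ?_
    by_cases hB : B.card = 6
    · simp only [hB, if_true]
    · simp only [hB, if_false, integral_zero]
  simp only [hI _ (hN _), hIl] at hT
  rw [Finset.sum_filter]
  exact hT

/-- **The limit of the contribution of a region.** -/
theorem core_limit {Q : Type*} [MeasureSpace Q] [SigmaFinite (volume : Measure Q)]
    (hM1 : MeasDom) (hN1 : MeasExc) (hN2 : NullExc) (hN3 : GenExc) (hDL : DomLim)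
    (far : R.Cm → Bool) {D : Set Q} (hD : MeasurableSet D) {yq αq : Q → Fin 3 → ℝ}
    (hym : Measurable yq) (hαm : Measurable αq)
    (hy1 : ∀ q ∈ D, ∀ k, 1 ≤ yq q k) (hα1 : ∀ q ∈ D, ∀ k, -7 ≤ αq q k ∧ αq q k ≤ 1)
    {g : ℝ → BF R m → ℝ} {N₀ : ℝ} (hN₀ : 1 ≤ N₀)
    (hgm : ∀ N, N₀ ≤ N → AEStronglyMeasurable
      (fun p : Q × Fb R m => g N ((fun k => N * yq p.1 k, αq p.1), p.2))
      (volume.restrict {p | p.1 ∈ D ∧ p.2 ∈ domF R m far (fun k => N * yq p.1 k) (αq p.1)}))
    {C : Q → ℝ} (hC0 : ∀ q ∈ D, 0 ≤ C q) (hC : IntegrableOn C D)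
    (hb : ∀ N, N₀ ≤ N → ∀ q ∈ D, ∀ x ∈ domF R m far (fun k => N * yq q k) (αq q),
      |g N ((fun k => N * yq q k, αq q), x)| ≤
        C q * ∏ f : (W R m).Fr, max (Real.exp (-x.1.1 f)) (1 / (N * yq q ((W R m).nk f.1))))
    {gl : Finset (W R m).Fr → Co R m → ℝ}
    (hl : ∀ q ∈ D, ∀ (B : Finset (W R m).Fr) (x : Fb R m),
      GenS R m (Sx R far) B (H573.mk R m (yq q) (αq q) x) →
      Tendsto (fun N => N ^ B.card * g N ((fun k => N * yq q k, αq q), dilF R m B N x)) atTop
        (𝓝 (if B.card = 6 then gl B (H573.mk R m (yq q) (αq q) x) else 0))) :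
    Tendsto (fun N : ℝ => ∫ q in D, ∫ x in domF R m far (fun k => N * yq q k) (αq q),
        g N ((fun k => N * yq q k, αq q), x)) atTop
      (𝓝 (∑ B ∈ (Finset.univ : Finset (Finset (W R m).Fr)).filter (fun B => B.card = 6),
        ∫ q in D, ∫ x in domL R m far B (yq q), gl B (H573.mk R m (yq q) (αq q) x))) := by
  refine tendsto_of_seq_tendsto fun N hNt => ?_
  have hN : ∀ n, N₀ ≤ max N₀ (N n) := fun n => le_max_left _ _
  have hNt' : Tendsto (fun n => max N₀ (N n)) atTop atTop :=
    tendsto_atTop_mono (fun n => le_max_right _ _) hNt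
  have h := core_limit_seq hM1 hN1 hN2 hN3 hDL far hD hym hαm hy1 hα1 hN₀ hgm hC0 hC hb hl
    (fun n => max N₀ (N n)) hN hNt'
  refine h.congr' ?_
  filter_upwards [hNt.eventually_ge_atTop N₀] with n hn
  simp only [Function.comp, max_eq_right hn]

end Main

end Vale.Agent.P273.H562

end
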