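import Vale.Agent.P273.H573.Skel

/-!
# P273, LIM step 5: the statements of measurability and of the null sets
-/

noncomputable section

namespace Vale.Agent.P273.H562

open Set Filter MeasureTheory H681 H95 H732 H573
open scoped Topology ContDiff

/-- base coordinates and fibre coordinates -/
abbrev BF (R : H95.Region) (m : ∀ k, Fin (R.n k + 1)) : Type :=
  ((Fin 3 → ℝ) × (Fin 3 → ℝ)) × Fb R m

/-- **(M1)** the domains are measurable, jointly in the base coordinates -/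
def MeasDom : Prop := ∀ (R : H95.Region) (m : ∀ k, Fin (R.n k + 1)) (far : R.Cm → Bool),
  MeasurableSet {q : BF R m | q.2 ∈ domF R m far q.1.1 q.1.2}

/-- **(M2)** the form is continuous on the domain (it is zero near the points where two marks of the
same type are close or a mark is close to a root) -/
def ContOm (X : Ext) (Θ : Gauge) : Prop := ∃ N₀ : ℝ, ∀ T : MT, SymT T →
  ∀ (R : H95.Region) (m : ∀ k, Fin (R.n k + 1)) (far : R.Cm → Bool),
    ContinuousOn (fun q : BF R m => OmR R m X Θ T (Sx R far) (mk R m q.1.1 q.1.2 q.2))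
      {q | (∀ k, N₀ ≤ q.1.1 k) ∧ (∀ k, -7 ≤ q.1.2 k ∧ q.1.2 k ≤ 1) ∧
        q.2 ∈ domF R m far q.1.1 q.1.2}

/-- the exceptional points of the limit -/
def Exc (R : H95.Region) (m : ∀ k, Fin (R.n k + 1)) (B : Finset (W R m).Fr) : Set (Co R m) :=
  {p | (∃ f, p.1 f = 0) ∨
    (∃ f ∈ B, p.1 f = szl R m (↑B) p ((W R m).last ((W R m).nk f.1))) ∨
    (∃ (j : L) (k : Fin 3) (h : R.pl j = Sum.inl k), 2 * depl R m (↑B) p h = p.2.2.1 k) ∨
    (∃ c c' : R.Cm, c ≠ c' ∧ p.2.2.2.2 c = p.2.2.2.2 c') ∨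
    (∃ (c : R.Cm) (k : Fin 3), ‖p.2.2.2.2 c - ctr k‖ = 1 / 32)}

/-- **(N1)** the exceptional set is measurable, jointly in the base coordinates -/
def MeasExc : Prop := ∀ (R : H95.Region) (m : ∀ k, Fin (R.n k + 1)) (B : Finset (W R m).Fr),
  MeasurableSet {q : BF R m | mk R m q.1.1 q.1.2 q.2 ∈ Exc R m B}

/-- **(N2)** its fibres are null sets -/
def NullExc : Prop := ∀ (R : H95.Region) (m : ∀ k, Fin (R.n k + 1)) (B : Finset (W R m).Fr)
  (y α : Fin 3 → ℝ), (∀ k, 0 < y k) → ∀ᵐ x : Fb R m, mk R m y α x ∉ Exc R m B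

/-- **(N3)** outside of it the points of the limit domain are generic -/
def GenExc : Prop := ∀ (R : H95.Region) (m : ∀ k, Fin (R.n k + 1)) (far : R.Cm → Bool)
  (B : Finset (W R m).Fr) (y α : Fin 3 → ℝ), (∀ k, 0 < y k) → (∀ k, -7 ≤ α k ∧ α k ≤ 1) →
  ∀ x ∈ domL R m far B y, mk R m y α x ∉ Exc R m B → GenS R m (Sx R far) B (mk R m y α x)

/-- **(D)** the domain converges to the limit domain outside of the exceptional set -/
def DomLim : Prop := ∀ (R : H95.Region) (m : ∀ k, Fin (R.n k + 1)) (far : R.Cm → Bool)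
  (B : Finset (W R m).Fr) (y α : Fin 3 → ℝ), (∀ k, 0 < y k) → (∀ k, -7 ≤ α k ∧ α k ≤ 1) →
  ∀ x : Fb R m, (∀ f ∈ B, 0 < x.1.1 f) → mk R m y α x ∉ Exc R m B → ∀ᶠ N : ℝ in atTop,
    ((((W R m).dpt (↑B) N (mk R m y α x)).1, x.1.2), x.2) ∈
        domF R m far (fun k => N * y k) α ↔ x ∈ domL R m far B y

end Vale.Agent.P273.H562

end
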