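import Vale.Agent.P273.H562.RegT
import Vale.Agent.P273.H970.Meas3
import Vale.Agent.P273.H607.Exc
import Vale.Agent.P273.H720.DomLim
import Vale.Agent.P273.H975.Bd3

/-!
# P273, LIM: the row regT from the pointwise limit on the torus
-/

noncomputable section

namespace Vale.Agent.P273.H562

open H681 H95 H732 H973 H573

/-- `LimRegT` from `PtT` -/
theorem limRegT_of {X : Ext} {κ : Fin 3 → Fin 3 → ℝ} {Θ : Gauge} (h : Asy κ Θ)
    (hP : PtT X Θ) : LimRegT X Θ :=
  limRegT H970.measDom H607.measExc H607.nullExc H607.genExc H720.domLim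
    (H970.contOm X Θ) (H975.bdT X h) hP

/-- the row `regT` -/
theorem regT_of {κ : Fin 3 → Fin 3 → ℝ} (hP : ∀ X Θ, Asy κ Θ → PtT X Θ) :
    ∀ X Θ, Asy κ Θ → LimRegT X Θ :=
  fun X Θ h => limRegT_of h (hP X Θ h)

end Vale.Agent.P273.H562

end
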